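import Mathlib
import Vale.Agent.P036.LB.HeilDefs
import Vale.Agent.P036.QF.ExplicitSets

/-!
# Heilbronn's triangle problem: a power saving lower bound with an explicit exponent
-/

namespace Vale.Agent.Results.P036.ExplicitPower

open Vale.Agent.P036.LB

theorem result :
    (∃ n₀ : ℕ, ∀ n : ℕ, n₀ ≤ n → (n:ℝ) ^ (-2 + 1 / 64245 : ℝ) ≤ heilDelta n) ∧
    (∃ n₀ : ℕ, ∀ n : ℕ, n₀ ≤ n → ∃ P : Finset (EuclideanSpace ℝ (Fin 2)), P.card = n ∧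
      (∀ p ∈ P, ∀ i, 0 ≤ p i ∧ p i ≤ 1) ∧
      ∀ p ∈ P, ∀ q ∈ P, ∀ r ∈ P, p ≠ q → q ≠ r → p ≠ r →
        (n:ℝ) ^ (-2 + 1 / 64246 : ℝ) ≤ tArea p q r) ∧
    ¬ (∀ ε : ℝ, 0 < ε → ∃ C : ℝ, ∃ n₀ : ℕ, ∀ n : ℕ, n₀ ≤ n →
      heilDelta n ≤ C * (n:ℝ) ^ (-2 + ε)) :=
  Vale.Agent.P036.QF.explicit_all

end Vale.Agent.Results.P036.ExplicitPower
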