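import Mathlib
import Vale.Agent.P036.LB.HeilDefs
import Vale.Agent.P036.LB.Heil
import Vale.Agent.P036.QF.Final

/-!
# Heilbronn's triangle problem: a power saving lower bound

`Δ(n) ≥ n^{-2+c}` for all large `n`, so the almost-`n⁻²` form of Heilbronn's conjecture is false.
-/

namespace Vale.Agent.Results.P036.PowerSaving

open Vale.Agent.P036.LB

theorem result :
    (∃ c : ℝ, 0 < c ∧ ∃ n₀ : ℕ, ∀ n : ℕ, n₀ ≤ n → (n:ℝ) ^ (-2 + c) ≤ heilDelta n) ∧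
    ¬ (∀ ε : ℝ, 0 < ε → ∃ C : ℝ, ∃ n₀ : ℕ, ∀ n : ℕ, n₀ ≤ n →
      heilDelta n ≤ C * (n:ℝ) ^ (-2 + ε)) := by
  have h := Vale.Agent.P036.QF.final
  refine ⟨h, ?_⟩
  obtain ⟨c, hc, n₀, H⟩ := h
  exact not_Q1_of_power c hc fun N => ⟨max n₀ N, le_max_right _ _, H _ (le_max_left _ _)⟩

end Vale.Agent.Results.P036.PowerSaving
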